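import Vale.Agent.P251CR.Mon
import Vale.Agent.P251CI.Gen

/-!
# P251C: morphisms out of tensor products, homotopies and stable equivalences in a reflective
subcategory
-/

open CategoryTheory MonoidalCategory Limits

namespace Vale.Agent.P251CR

open Vale.Agent.P251.G Vale.Agent.P251.G.LC Vale.Agent.P251.H Vale.Agent.P251.H.StabInput
open Functor.LaxMonoidal Functor.OplaxMonoidal Functor.Monoidal

universe v u u'

variable {C : Type u} [Category.{v} C] [MonoidalCategory C] [SymmetricCategory C]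
  [MonoidalClosed C] [HasZeroMorphisms C] [HasColimitsOfSize.{0, 0} C] [StabInput C]
  {D : Type u'} [Category.{v} D] (R : Rfl C D)

section Gen

open Vale.Agent.P251CI

theorem exists_pwM_iso {A B : C} (e : A ≅ B) (k : ℕ) :
    ∃ φ : pwM k A ≅ pwM k B, φ.hom ≫ P251CI.tkM k B = P251CI.tkM k A ≫ e.hom := by
  induction k with
  | zero => exact ⟨e, (Category.comp_id _).trans (Category.id_comp _).symm⟩
  | succ k ih =>
    obtain ⟨φ, hφ⟩ := ih
    refine ⟨whiskerLeftIso (U C) φ, ?_⟩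
    change U C ◁ φ.hom ≫ (lamU C ▷ pwM k B ≫ (λ_ (pwM k B)).hom) ≫ P251CI.tkM k B =
      ((lamU C ▷ pwM k A ≫ (λ_ (pwM k A)).hom) ≫ P251CI.tkM k A) ≫ e.hom
    simp only [Category.assoc]
    rw [whisker_exchange_assoc, leftUnitor_naturality_assoc, hφ]

theorem SM_of_iso {A B X Y : C} {f : X ⟶ Y} (e : A ≅ B) (h : SM f B) : SM f A := by
  intro y
  obtain ⟨k, x, hx⟩ := h (e.inv ≫ y)
  obtain ⟨φ, hφ⟩ := exists_pwM_iso e k
  refine ⟨k, φ.hom ≫ x, ?_⟩
  have h1 := hx.comp_left φ.hom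
  rw [← Category.assoc φ.hom (P251CI.tkM k B), hφ, Category.assoc, Iso.hom_inv_id_assoc,
    ← Category.assoc] at h1
  exact h1

theorem IM_of_iso {A B X Y : C} {f : X ⟶ Y} (e : A ≅ B) (h : IM f B) : IM f A := by
  intro x x' hx
  obtain ⟨k, hk⟩ := h (e.inv ≫ x) (e.inv ≫ x') (by
    rw [Category.assoc, Category.assoc]
    exact hx.comp_left e.inv)
  obtain ⟨φ, hφ⟩ := exists_pwM_iso e k
  refine ⟨k, ?_⟩
  have h1 := hk.comp_left φ.hom
  rw [← Category.assoc φ.hom, ← Category.assoc φ.hom, hφ, Category.assoc, Category.assoc,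
    Iso.hom_inv_id_assoc, Iso.hom_inv_id_assoc] at h1
  exact h1

/-- stable equivalences, tested on the cells themselves -/
theorem piW_iff_cell (AA : ObjectProperty LC) [Fact (∀ K, AA K → AA (RR ⊗ K))] {X Y : C}
    (f : X ⟶ Y) : piW (cells AA : ObjectProperty C) f ↔
      ∀ (n : ℕ) (K : LC), AA K → SM f (cell n K) ∧ IM f (cell n K) := by
  rw [piW_iff_SM]
  constructor
  · exact fun h n K hK => h _ ⟨n, K, hK, ⟨Iso.refl _⟩⟩
  · rintro h A ⟨n, K, hK, ⟨e⟩⟩
    exact ⟨SM_of_iso e (h n K hK).1, IM_of_iso e (h n K hK).2⟩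

end Gen

namespace RM

/-- the inclusion is lax monoidal -/
noncomputable instance : (q R).LaxMonoidal := (adj R).rightAdjointLaxMonoidal

instance : (adj R).IsMonoidal := ⟨rfl, fun _ _ => rfl⟩

/-- the unit of the adjunction -/
def un (A : C) : A ⟶ (q R).obj ((r R).obj A) := (adj R).unit.app A

/-- the counit of the adjunction -/
def co (X : RM R) : (r R).obj ((q R).obj X) ⟶ X := (adj R).counit.app X

instance (X : RM R) : IsIso (co R X) := inferInstanceAs (IsIso ((adj R).counit.app X))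

instance (K : LC) : IsIso (un R ((J C).obj K)) := R.hj K

@[reassoc]
theorem un_nat {A B : C} (a : A ⟶ B) : un R A ≫ (q R).map ((r R).map a) = a ≫ un R B :=
  (adj R).unit_naturality a

@[reassoc]
theorem co_nat {X Y : RM R} (f : X ⟶ Y) : (r R).map ((q R).map f) ≫ co R Y = co R X ≫ f :=
  (adj R).counit_naturality f

@[reassoc]
theorem map_un_co (A : C) : (r R).map (un R A) ≫ co R ((r R).obj A) = 𝟙 _ :=
  (adj R).left_triangle_components A

@[reassoc]
theorem un_map_co (X : RM R) : un R ((q R).obj X) ≫ (q R).map (co R X) = 𝟙 _ :=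
  (adj R).right_triangle_components X

theorem mu_q (X Y : RM R) : μ (q R) X Y =
    un R _ ≫ (q R).map (δ (r R) ((q R).obj X) ((q R).obj Y) ≫ (co R X ⊗ₘ co R Y)) := rfl

theorem eps_q : ε (q R) = un R _ ≫ (q R).map (η (r R)) := rfl

/-- the adjoint of a morphism -/
def ad {A : C} {X : RM R} (f : (r R).obj A ⟶ X) : A ⟶ (q R).obj X :=
  un R A ≫ (q R).map f

theorem ad_bijective (A : C) (X : RM R) :
    Function.Bijective (ad R : ((r R).obj A ⟶ X) → (A ⟶ (q R).obj X)) := by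
  have h : (ad R : ((r R).obj A ⟶ X) → (A ⟶ (q R).obj X)) = (adj R).homEquiv A X := by
    funext f
    exact ((adj R).homEquiv_unit A X f).symm
  rw [h]
  exact ((adj R).homEquiv A X).bijective

theorem ad_comp {A : C} {X Y : RM R} (f : (r R).obj A ⟶ X) (g : X ⟶ Y) :
    ad R (f ≫ g) = ad R f ≫ (q R).map g := by
  simp only [ad, Functor.map_comp, Category.assoc]

theorem ad_map_comp {A B : C} {X : RM R} (a : A ⟶ B) (f : (r R).obj B ⟶ X) :
    ad R ((r R).map a ≫ f) = a ≫ ad R f := by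
  simp only [ad, Functor.map_comp]
  rw [un_nat_assoc]

theorem map_ad_counit {A : C} {X : RM R} (f : (r R).obj A ⟶ X) :
    (r R).map (ad R f) ≫ co R X = f := by
  simp only [ad, Functor.map_comp, Category.assoc]
  rw [co_nat, map_un_co_assoc]

/-- **Morphisms out of a tensor product.** -/
theorem ten_bijective (X Y Z : RM R) :
    Function.Bijective (fun b : X ⊗ Y ⟶ Z => μ (q R) X Y ≫ (q R).map b) := by
  have h := (ad_bijective R ((q R).obj X ⊗ (q R).obj Y) Z).comp
    (bij_pre (δ (r R) ((q R).obj X) ((q R).obj Y) ≫ (co R X ⊗ₘ co R Y)) Z)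
  refine (congrArg Function.Bijective ?_).mp h
  funext b
  simp only [Function.comp]
  rw [ad_comp, mu_q]
  rfl

/-- morphisms out of a tensor product, as an equivalence -/
noncomputable def tenEquiv (X Y Z : RM R) :
    (X ⊗ Y ⟶ Z) ≃ ((q R).obj X ⊗ (q R).obj Y ⟶ (q R).obj Z) :=
  Equiv.ofBijective _ (ten_bijective R X Y Z)

theorem tenEquiv_apply {X Y Z : RM R} (b : X ⊗ Y ⟶ Z) :
    tenEquiv R X Y Z b = μ (q R) X Y ≫ (q R).map b := rfl

theorem ten_ext {X Y Z : RM R} {b b' : X ⊗ Y ⟶ Z}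
    (h : μ (q R) X Y ≫ (q R).map b = μ (q R) X Y ≫ (q R).map b') : b = b' :=
  (ten_bijective R X Y Z).1 h

/-- the inclusion is lax braided -/
theorem mu_braiding (X Y : RM R) :
    μ (q R) X Y ≫ (q R).map (β_ X Y).hom = (β_ _ _).hom ≫ μ (q R) Y X := by
  rw [mu_q, mu_q]
  change ad R _ ≫ _ = _ ≫ ad R _
  rw [← ad_comp, ← ad_map_comp, Category.assoc, BraidedCategory.braiding_naturality,
    Functor.map_braiding, Category.assoc, Category.assoc, μ_δ_assoc]

@[reassoc]
theorem map_mu_co (X Y : RM R) : (r R).map (μ (q R) X Y) ≫ co R (X ⊗ Y) =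
    δ (r R) ((q R).obj X) ((q R).obj Y) ≫ (co R X ⊗ₘ co R Y) := map_ad_counit R _

/-- morphisms out of a triple tensor product are determined on generators -/
theorem ten3_ext {X Y Z W : RM R} {b b' : (X ⊗ Y) ⊗ Z ⟶ W}
    (h : μ (q R) X Y ▷ (q R).obj Z ≫ μ (q R) (X ⊗ Y) Z ≫ (q R).map b =
      μ (q R) X Y ▷ (q R).obj Z ≫ μ (q R) (X ⊗ Y) Z ≫ (q R).map b') : b = b' := by
  apply ten_ext
  have h1 : IsIso ((r R).map (μ (q R) X Y)) := by
    have : IsIso ((r R).map (μ (q R) X Y) ≫ co R (X ⊗ Y)) := by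
      rw [map_mu_co]
      infer_instance
    exact IsIso.of_isIso_comp_right _ (co R (X ⊗ Y))
  have h2 : IsIso ((r R).map (μ (q R) X Y ▷ (q R).obj Z)) := by
    rw [Functor.Monoidal.map_whiskerRight]
    infer_instance
  obtain ⟨c, hc⟩ := (ad_bijective R _ W).2 (μ (q R) (X ⊗ Y) Z ≫ (q R).map b)
  obtain ⟨c', hc'⟩ := (ad_bijective R _ W).2 (μ (q R) (X ⊗ Y) Z ≫ (q R).map b')
  rw [← hc, ← hc', ← ad_map_comp, ← ad_map_comp] at h
  rw [← hc, ← hc', (cancel_epi _).mp ((ad_bijective R _ W).1 h)]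

/-- the lax structure and the unit of the adjunction -/
theorem unit_mu (A B : C) :
    (un R A ⊗ₘ un R B) ≫ μ (q R) _ _ ≫ (q R).map (μ (r R) A B) = un R (A ⊗ B) := by
  have h : un R (A ⊗ B) ≫ (q R).map (δ (r R) A B) = (un R A ⊗ₘ un R B) ≫ μ (q R) _ _ :=
    (adj R).unit_app_tensor_comp_map_δ A B
  rw [← Category.assoc, ← h, Category.assoc, ← (q R).map_comp, δ_μ, (q R).map_id,
    Category.comp_id]

/-! ### homotopies -/

theorem inc_mu (t : unitInterval) (A : C) :
    inc t ((r R).obj A) ≫ μ (r R) A (I C) = (r R).map (inc t A) :=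
  jincl_comp (r R) (J C) t A

theorem mHtpy_map {A B : C} {f g : A ⟶ B} (h : MHtpy f g) :
    MHtpy ((r R).map f) ((r R).map g) := jhomotopic_map (r R) (J C) h

theorem mHtpy_iff {A : C} {X : RM R} (f g : (r R).obj A ⟶ X) :
    MHtpy f g ↔ MHtpy (ad R f) (ad R g) := by
  constructor
  · rintro ⟨H, h0, h1⟩
    refine ⟨ad R (δ (r R) A (I C) ≫ H), ?_, ?_⟩
    · rw [← ad_map_comp, ← inc_mu, Category.assoc, μ_δ_assoc]
      exact congrArg (ad R) h0
    · rw [← ad_map_comp, ← inc_mu, Category.assoc, μ_δ_assoc]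
      exact congrArg (ad R) h1
  · intro h
    have h1 := (mHtpy_map R h).comp_right (co R X)
    rw [map_ad_counit, map_ad_counit] at h1
    exact h1

/-- homotopies are reflected and preserved by the inclusion -/
theorem mHtpy_q_iff {X Y : RM R} (f g : X ⟶ Y) :
    MHtpy ((q R).map f) ((q R).map g) ↔ MHtpy f g := by
  have e : ∀ f : X ⟶ Y, ad R (co R X ≫ f) = (q R).map f := by
    intro f
    rw [ad_comp, ad, un_map_co, Category.id_comp]
  rw [← e, ← e, ← mHtpy_iff]
  constructor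
  · intro h
    have h1 := h.comp_left (inv (co R X))
    rw [IsIso.inv_hom_id_assoc, IsIso.inv_hom_id_assoc] at h1
    exact h1
  · exact fun h => h.comp_left _

/-! ### stable equivalences -/

open Vale.Agent.P251CI

theorem exists_pwIso (A : C) (k : ℕ) :
    ∃ e : pwM k ((r R).obj A) ≅ (r R).obj (pwM k A),
      e.hom ≫ (r R).map (P251CI.tkM k A) = P251CI.tkM k ((r R).obj A) := by
  induction k with
  | zero => exact ⟨Iso.refl _, (Category.id_comp _).trans ((r R).map_id A)⟩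
  | succ k ih =>
    obtain ⟨e, he⟩ := ih
    refine ⟨(μIso (r R) (L : C) (S C) ⊗ᵢ e) ≪≫ μIso (r R) (U C) (pwM k A), ?_⟩
    change ((μ (r R) (L : C) (S C) ⊗ₘ e.hom) ≫ μ (r R) (U C) (pwM k A)) ≫
      (r R).map ((lamU C ▷ pwM k A ≫ (λ_ (pwM k A)).hom) ≫ P251CI.tkM k A) =
      (lamR (r R) (J C) L lam ▷ pwM k ((r R).obj A) ≫ (λ_ (pwM k ((r R).obj A))).hom) ≫
        P251CI.tkM k ((r R).obj A)
    rw [← he]
    simp only [lamR, Functor.map_comp, Functor.Monoidal.map_whiskerRight,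
      Functor.Monoidal.map_leftUnitor, Category.assoc, μ_δ_assoc, comp_whiskerRight,
      tensorHom_def]
    rw [whisker_exchange_assoc, whisker_exchange_assoc, leftUnitor_naturality_assoc]

theorem SM_iff {X Y : RM R} (f : X ⟶ Y) (A : C) :
    SM f ((r R).obj A) ↔ SM ((q R).map f) A := by
  constructor
  · intro h y
    obtain ⟨y, rfl⟩ := (ad_bijective R A Y).2 y
    obtain ⟨k, x, hx⟩ := h y
    obtain ⟨e, he⟩ := exists_pwIso R A k
    refine ⟨k, ad R (e.inv ≫ x), ?_⟩
    rw [← ad_comp, ← ad_map_comp, ← mHtpy_iff]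
    have h1 := hx.comp_left e.inv
    rw [← he, Category.assoc, Iso.inv_hom_id_assoc, ← Category.assoc] at h1
    exact h1
  · intro h y
    obtain ⟨k, x, hx⟩ := h (ad R y)
    obtain ⟨x, rfl⟩ := (ad_bijective R _ X).2 x
    obtain ⟨e, he⟩ := exists_pwIso R A k
    refine ⟨k, e.hom ≫ x, ?_⟩
    rw [← ad_comp, ← ad_map_comp, ← mHtpy_iff] at hx
    rw [← he, Category.assoc, Category.assoc]
    exact hx.comp_left e.hom

theorem IM_iff {X Y : RM R} (f : X ⟶ Y) (A : C) :
    IM f ((r R).obj A) ↔ IM ((q R).map f) A := by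
  constructor
  · intro h x x' hx
    obtain ⟨x, rfl⟩ := (ad_bijective R A X).2 x
    obtain ⟨x', rfl⟩ := (ad_bijective R A X).2 x'
    rw [← ad_comp, ← ad_comp, ← mHtpy_iff] at hx
    obtain ⟨k, hk⟩ := h x x' hx
    obtain ⟨e, he⟩ := exists_pwIso R A k
    refine ⟨k, ?_⟩
    rw [← ad_map_comp, ← ad_map_comp, ← mHtpy_iff]
    have h1 := hk.comp_left e.inv
    rw [← he, Category.assoc, Category.assoc, Iso.inv_hom_id_assoc, Iso.inv_hom_id_assoc] at h1
    exact h1
  · intro h x x' hx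
    rw [mHtpy_iff, ad_comp, ad_comp] at hx
    obtain ⟨k, hk⟩ := h _ _ hx
    obtain ⟨e, he⟩ := exists_pwIso R A k
    refine ⟨k, ?_⟩
    rw [← ad_map_comp, ← ad_map_comp, ← mHtpy_iff] at hk
    rw [← he, Category.assoc, Category.assoc]
    exact hk.comp_left e.hom

/-- the reflector and the cells -/
noncomputable def cellIso (n : ℕ) (K : LC) : (cell n K : RM R) ≅ (r R).obj (cell n K) :=
  whiskerRightIso (tpowIso (r R) (L : C) n) _ ≪≫ μIso (r R) _ _

/-- **Stable equivalences** of the reflective subcategory are those of the ambient category. -/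
theorem piW_iff (AA : ObjectProperty LC) [Fact (∀ K, AA K → AA (RR ⊗ K))] {X Y : RM R}
    (f : X ⟶ Y) :
    piW (cells AA : ObjectProperty (RM R)) f ↔
      piW (cells AA : ObjectProperty C) ((q R).map f) := by
  constructor
  · intro h
    rw [piW_iff_SM] at h
    rw [piW_iff_cell]
    intro n K hK
    obtain ⟨h1, h2⟩ := h _ ⟨n, K, hK, ⟨(cellIso R n K).symm⟩⟩
    exact ⟨(SM_iff R f _).mp h1, (IM_iff R f _).mp h2⟩
  · intro h
    rw [piW_iff_SM] at h
    rw [piW_iff_cell]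
    intro n K hK
    obtain ⟨h1, h2⟩ := h _ ⟨n, K, hK, ⟨Iso.refl _⟩⟩
    exact ⟨SM_of_iso (cellIso R n K) ((SM_iff R f _).mpr h1),
      IM_of_iso (cellIso R n K) ((IM_iff R f _).mpr h2)⟩

end RM

end Vale.Agent.P251CR
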