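import Vale.Agent.P251.H.StabInput
import Mathlib.CategoryTheory.Adjunction.Limits
import Mathlib.CategoryTheory.Adjunction.FullyFaithful
import Mathlib.CategoryTheory.Limits.Preserves.Shapes.Pullbacks
import Mathlib.CategoryTheory.Limits.Preserves.Shapes.Products

/-!
# P251C: a reflective subcategory with a braided reflector inherits the stabilisation input
-/

open CategoryTheory MonoidalCategory Limits

namespace Vale.Agent.P251CR

open Vale.Agent.P251.G Vale.Agent.P251.G.LC Vale.Agent.P251.H Vale.Agent.P251.H.StabInput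
open Functor.LaxMonoidal Functor.OplaxMonoidal Functor.Monoidal

universe v u u'

variable {C : Type u} [Category.{v} C] [MonoidalCategory C]
  {D : Type u'} [Category.{v} D] [MonoidalCategory D]
  {r : C ⥤ D} {q : D ⥤ C}

section Basic

variable (r) [r.Monoidal]

/-- a monoidal functor and tensor powers -/
noncomputable def tpowIso (X : C) : (n : ℕ) → (tpow (r.obj X) n ≅ r.obj (tpow X n))
  | 0 => εIso r
  | n + 1 => whiskerLeftIso (r.obj X) (tpowIso X n) ≪≫ μIso r X (tpow X n)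

theorem jincl_comp (j : LC ⥤ C) [j.Monoidal] (t : unitInterval) (X : C) :
    jincl (j ⋙ r) t (r.obj X) ≫ μ r X (j.obj II) = r.map (jincl j t X) := by
  simp only [jincl, Functor.LaxMonoidal.comp_ε, Functor.comp_map, Functor.comp_obj,
    Category.assoc, Functor.map_comp, MonoidalCategory.whiskerLeft_comp]
  rw [μ_natural_right, μ_natural_right_assoc, Functor.LaxMonoidal.right_unitality_inv_assoc]

theorem jhomotopic_map (j : LC ⥤ C) [j.Monoidal] {X Y : C} {f g : X ⟶ Y}
    (h : JHomotopic j f g) : JHomotopic (j ⋙ r) (r.map f) (r.map g) := by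
  obtain ⟨H, h0, h1⟩ := h
  refine ⟨μ r X (j.obj II) ≫ r.map H, ?_, ?_⟩
  · rw [← Category.assoc, jincl_comp, ← r.map_comp, h0]
  · rw [← Category.assoc, jincl_comp, ← r.map_comp, h1]

theorem jincl_nat (j : LC ⥤ D) [j.Monoidal] (t : unitInterval) {X Y : D} (f : X ⟶ Y) :
    jincl j t X ≫ f ▷ j.obj II = f ≫ jincl j t Y := by
  simp only [jincl, Category.assoc]
  rw [whisker_exchange, rightUnitor_inv_naturality_assoc]

theorem jhomotopic_conj (j : LC ⥤ D) [j.Monoidal] {X Y X' Y' : D} {f g : X ⟶ Y}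
    (h : JHomotopic j f g) (a : X' ⟶ X) (b : Y ⟶ Y') :
    JHomotopic j (a ≫ f ≫ b) (a ≫ g ≫ b) := by
  obtain ⟨H, h0, h1⟩ := h
  refine ⟨a ▷ j.obj II ≫ H ≫ b, ?_, ?_⟩
  · rw [← Category.assoc, jincl_nat, Category.assoc, ← Category.assoc (jincl j 0 X), h0]
  · rw [← Category.assoc, jincl_nat, Category.assoc, ← Category.assoc (jincl j 1 X), h1]

/-- the image of the structure map -/
noncomputable def lamR (j : LC ⥤ C) (L : C) (lam : L ⊗ j.obj RR ⟶ 𝟙_ C) :
    r.obj L ⊗ (j ⋙ r).obj RR ⟶ 𝟙_ D :=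
  μ r L (j.obj RR) ≫ r.map lam ≫ η r

theorem jev_comp (j : LC ⥤ C) [j.Monoidal] (L : C) (lam : L ⊗ j.obj RR ⟶ 𝟙_ C) (K : LC) :
    jev (j ⋙ r) (r.obj L) (lamR r j L lam) K =
      μ r L (j.obj (RR ⊗ K)) ≫ r.map (jev j L lam K) := by
  simp only [jev, lamR, Functor.OplaxMonoidal.comp_δ, Functor.comp_obj, Functor.map_comp,
    MonoidalCategory.whiskerLeft_comp, comp_whiskerRight, Category.assoc]
  rw [← μ_natural_right_assoc]
  congr 1
  rw [Functor.Monoidal.map_associator_inv, Functor.Monoidal.map_whiskerRight,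
    Functor.Monoidal.map_leftUnitor]
  simp only [Category.assoc, μ_δ_assoc]

end Basic

omit [MonoidalCategory D] in
theorem bij_pre {A B : D} (e : A ⟶ B) [IsIso e] (Z : D) :
    Function.Bijective (fun f : B ⟶ Z => e ≫ f) :=
  ⟨fun _ _ h => (cancel_epi e).mp h, fun g => ⟨inv e ≫ g, IsIso.hom_inv_id_assoc e g⟩⟩

omit [MonoidalCategory C] in
theorem bij_post {A B : C} (e : A ⟶ B) [IsIso e] (Z : C) :
    Function.Bijective (fun f : Z ⟶ A => f ≫ e) :=
  ⟨fun _ _ h => (cancel_mono e).mp h,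
    fun g => ⟨g ≫ inv e, by simp only [Category.assoc, IsIso.inv_hom_id, Category.comp_id]⟩⟩

section Adj

variable (adj : r ⊣ q)

omit [MonoidalCategory C] [MonoidalCategory D] in
include adj in
theorem map_bij (Y K : C) [IsIso (adj.unit.app K)] :
    Function.Bijective (fun f : Y ⟶ K => r.map f) := by
  have h1 : Function.Bijective (fun f : Y ⟶ K => f ≫ adj.unit.app K) :=
    ⟨fun _ _ h => (cancel_mono _).mp h, fun g => ⟨g ≫ inv (adj.unit.app K), by
      simp only [Category.assoc, IsIso.inv_hom_id, Category.comp_id]⟩⟩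
  have h2 : (fun f : Y ⟶ K => f ≫ adj.unit.app K) =
      adj.homEquiv Y (r.obj K) ∘ (fun f : Y ⟶ K => r.map f) := by
    funext f
    simp only [Function.comp, Adjunction.homEquiv_unit]
    exact adj.unit.naturality f
  rw [h2] at h1
  exact (Function.Bijective.of_comp_iff' (adj.homEquiv Y (r.obj K)).bijective _).mp h1

variable [r.Monoidal] [q.Full] [q.Faithful]

include adj in
theorem ev_bij_comp (j : LC ⥤ C) [j.Monoidal] (L : C) (lam : L ⊗ j.obj RR ⟶ 𝟙_ C) (K : LC)
    [IsIso (adj.unit.app (j.obj K))] [IsIso (adj.unit.app (j.obj (RR ⊗ K)))]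
    (h : ∀ X : C, Function.Bijective (fun x : X ⟶ j.obj (RR ⊗ K) => L ◁ x ≫ jev j L lam K))
    (X : D) : Function.Bijective (fun x : X ⟶ (j ⋙ r).obj (RR ⊗ K) =>
      r.obj L ◁ x ≫ jev (j ⋙ r) (r.obj L) (lamR r j L lam) K) := by
  have h1 : ∀ Y : C, Function.Bijective (fun x : r.obj Y ⟶ (j ⋙ r).obj (RR ⊗ K) =>
      r.obj L ◁ x ≫ jev (j ⋙ r) (r.obj L) (lamR r j L lam) K) := by
    intro Y
    refine (Function.Bijective.of_comp_iff _ (map_bij adj Y (j.obj (RR ⊗ K)))).mp ?_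
    have h2 := ((bij_pre (μ r L Y) (r.obj (j.obj K))).comp (map_bij adj (L ⊗ Y) (j.obj K))).comp
      (h Y)
    refine (congrArg Function.Bijective ?_).mp h2
    funext y
    simp only [Function.comp]
    rw [jev_comp, r.map_comp, ← μ_natural_right_assoc]
  refine (Function.Bijective.of_comp_iff'
    (bij_pre (r.obj L ◁ adj.counit.app X) ((j ⋙ r).obj K)) _).mp ?_
  have h3 := (h1 (q.obj X)).comp (bij_pre (adj.counit.app X) ((j ⋙ r).obj (RR ⊗ K)))
  refine (congrArg Function.Bijective ?_).mp h3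
  funext x
  simp only [Function.comp]
  rw [← Category.assoc, ← MonoidalCategory.whiskerLeft_comp]

omit [q.Full] [q.Faithful] in
theorem rot_comp (j : LC ⥤ C) [j.Monoidal] (L : C) (lam : L ⊗ j.obj RR ⟶ 𝟙_ C)
    (h : JHomotopic j (lam ▷ (L ⊗ j.obj RR) ≫ (λ_ (L ⊗ j.obj RR)).hom)
      ((L ⊗ j.obj RR) ◁ lam ≫ (ρ_ (L ⊗ j.obj RR)).hom)) :
    JHomotopic (j ⋙ r)
      (lamR r j L lam ▷ (r.obj L ⊗ (j ⋙ r).obj RR) ≫ (λ_ (r.obj L ⊗ (j ⋙ r).obj RR)).hom)
      ((r.obj L ⊗ (j ⋙ r).obj RR) ◁ lamR r j L lam ≫ (ρ_ (r.obj L ⊗ (j ⋙ r).obj RR)).hom) := by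
  have h1 := jhomotopic_conj (j ⋙ r) (jhomotopic_map r j h)
    ((μ r L (j.obj RR) ⊗ₘ μ r L (j.obj RR)) ≫ μ r _ _) (δ r L (j.obj RR))
  have e1 : ((μ r L (j.obj RR) ⊗ₘ μ r L (j.obj RR)) ≫ μ r _ _) ≫
      r.map (lam ▷ (L ⊗ j.obj RR) ≫ (λ_ (L ⊗ j.obj RR)).hom) ≫ δ r L (j.obj RR) =
      lamR r j L lam ▷ (r.obj L ⊗ (j ⋙ r).obj RR) ≫ (λ_ (r.obj L ⊗ (j ⋙ r).obj RR)).hom := by
    simp only [lamR, Functor.map_comp, Functor.Monoidal.map_whiskerRight,
      Functor.Monoidal.map_leftUnitor, Category.assoc, μ_δ_assoc, comp_whiskerRight,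
      Functor.comp_obj, tensorHom_def]
    rw [whisker_exchange_assoc, whisker_exchange_assoc, leftUnitor_naturality_assoc, μ_δ,
      Category.comp_id]
  have e2 : ((μ r L (j.obj RR) ⊗ₘ μ r L (j.obj RR)) ≫ μ r _ _) ≫
      r.map ((L ⊗ j.obj RR) ◁ lam ≫ (ρ_ (L ⊗ j.obj RR)).hom) ≫ δ r L (j.obj RR) =
      (r.obj L ⊗ (j ⋙ r).obj RR) ◁ lamR r j L lam ≫ (ρ_ (r.obj L ⊗ (j ⋙ r).obj RR)).hom := by
    simp only [lamR, Functor.map_comp, Functor.Monoidal.map_whiskerLeft,
      Functor.Monoidal.map_rightUnitor, Category.assoc, μ_δ_assoc,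
      MonoidalCategory.whiskerLeft_comp, Functor.comp_obj, tensorHom_def']
    rw [← whisker_exchange_assoc, ← whisker_exchange_assoc, rightUnitor_naturality_assoc, μ_δ,
      Category.comp_id]
  rw [e1, e2] at h1
  exact h1

omit [MonoidalCategory C] [MonoidalCategory D] [r.Monoidal] in
theorem finFactor_comp [HasColimitsOfSize.{0, 0} C] [HasColimitsOfSize.{0, 0} D]
    (hfin : ∀ (ι : Type) (X : ι → D), IsIso (adj.unit.app (∐ fun i => q.obj (X i))))
    {A : C} (hA : FinFactor A) : FinFactor (r.obj A) := by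
  intro ι X f
  have := adj.leftAdjoint_preservesColimits
  have := hfin ι X
  let e : ∐ X ⟶ r.obj (∐ fun i => q.obj (X i)) :=
    Limits.Sigma.map (fun i => inv (adj.counit.app (X i))) ≫
      sigmaComparison r (fun i => q.obj (X i))
  have he : IsIso e := inferInstance
  obtain ⟨f', hf'⟩ := (map_bij adj A (∐ fun i => q.obj (X i))).2 (f ≫ e)
  obtain ⟨s, g, hg⟩ := hA _ f'
  refine ⟨s, r.map g ≫ inv (sigmaComparison r (fun i : s => q.obj (X i))) ≫
    Limits.Sigma.map (fun i : s => adj.counit.app (X i)), ?_⟩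
  rw [← cancel_mono e, ← hf', ← hg]
  simp only [Category.assoc, r.map_comp]
  congr 1
  rw [IsIso.inv_comp_eq]
  apply Sigma.hom_ext
  intro i
  simp only [e, Sigma.ι_map_assoc, Sigma.ι_desc_assoc, IsIso.hom_inv_id_assoc,
    ι_comp_sigmaComparison_assoc, ← Functor.map_comp, Sigma.ι_desc]
  exact ι_comp_sigmaComparison r (fun i => q.obj (X i)) i

end Adj

section Stab

variable [SymmetricCategory C] [MonoidalClosed C] [HasZeroMorphisms C]
  [HasColimitsOfSize.{0, 0} C] [StabInput C]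
  [SymmetricCategory D] [MonoidalClosed D] [HasZeroMorphisms D] [HasColimitsOfSize.{0, 0} D]
  (adj : r ⊣ q) [r.Braided] [q.Full] [q.Faithful]

/-- **The reflective subcategory is a stabilisation input.** -/
@[instance_reducible]
noncomputable def stabRefl (hj : ∀ K : LC, IsIso (adj.unit.app ((J C).obj K)))
    (hfin : ∀ (ι : Type) (X : ι → D), IsIso (adj.unit.app (∐ fun i => q.obj (X i)))) :
    StabInput D where
  j := J C ⋙ r
  braided := inferInstance
  full := ⟨fun {X Y} f => by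
    have := hj Y
    obtain ⟨g, hg⟩ := (map_bij adj ((J C).obj X) ((J C).obj Y)).2 f
    obtain ⟨k, rfl⟩ := (J C).map_surjective g
    exact ⟨k, hg⟩⟩
  faithful := ⟨fun {X Y} f g h => by
    have := hj Y
    exact (J C).map_injective ((map_bij adj ((J C).obj X) ((J C).obj Y)).1 h)⟩
  isZero_empty := by
    have := hj (LC.of Empty)
    have h : IsZero (q.obj (r.obj ((J C).obj (LC.of Empty)))) :=
      (isZero_empty (M := C)).of_iso (asIso (adj.unit.app ((J C).obj (LC.of Empty)))).symm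
    exact IsZero.of_full_of_faithful_of_isZero q _ h
  pushout i f g k hi h := by
    have := adj.leftAdjoint_preservesColimits
    exact (StabInput.pushout (M := C) i f g k hi h).map r
  L := r.obj (L : C)
  lam := lamR r (J C) L lam
  ev_bij X K := by
    have := hj K
    have := hj (RR ⊗ K)
    exact ev_bij_comp adj (J C) L lam K (fun X => StabInput.ev_bij X K) X
  rot := rot_comp (J C) L lam StabInput.rot
  fin n K := by
    have h : FinFactor (r.obj (tpow (L : C) n ⊗ (J C).obj K)) :=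
      finFactor_comp adj hfin (StabInput.fin n K)
    let e : tpow (r.obj (L : C)) n ⊗ (J C ⋙ r).obj K ≅ r.obj (tpow (L : C) n ⊗ (J C).obj K) :=
      whiskerRightIso (tpowIso r L n) _ ≪≫ μIso r _ _
    intro ι X f
    obtain ⟨s, g, hg⟩ := h X (e.inv ≫ f)
    exact ⟨s, e.hom ≫ g, by rw [Category.assoc, hg, Iso.hom_inv_id_assoc]⟩

end Stab

end Vale.Agent.P251CR
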