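import Vale.Agent.P251CR.Refl
import Mathlib.CategoryTheory.Localization.Monoidal.Braided
import Mathlib.CategoryTheory.Monoidal.Braided.Reflection
import Mathlib.CategoryTheory.Localization.Adjunction
import Mathlib.CategoryTheory.Monad.Limits

/-!
# P251C: the closed symmetric monoidal structure of a reflective subcategory (Day reflection)

`Rfl C D` bundles a reflection `r ⊣ q` of a stabilisation input `C` onto `D`; `RM R` is `D` with
all the structure of a stabilisation input.
-/

open CategoryTheory MonoidalCategory Limits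

namespace Vale.Agent.P251CR

open Vale.Agent.P251.G Vale.Agent.P251.G.LC Vale.Agent.P251.H Vale.Agent.P251.H.StabInput
open Functor.LaxMonoidal Functor.OplaxMonoidal Functor.Monoidal

universe v u u'

/-- A reflection of a stabilisation input. -/
structure Rfl (C : Type u) [Category.{v} C] [MonoidalCategory C] [SymmetricCategory C]
    [MonoidalClosed C] [HasZeroMorphisms C] [HasColimitsOfSize.{0, 0} C] [StabInput C]
    (D : Type u') [Category.{v} D] where
  /-- the reflector -/
  r : C ⥤ D
  /-- the inclusion -/
  q : D ⥤ C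
  /-- the adjunction -/
  adj : r ⊣ q
  full : q.Full
  faithful : q.Faithful
  hten : ∀ X Y : C, IsIso (r.map (adj.unit.app X ▷ Y))
  hj : ∀ K : LC, IsIso (adj.unit.app ((J C).obj K))
  hfin : ∀ (ι : Type) (X : ι → D), IsIso (adj.unit.app (∐ fun i => q.obj (X i)))

attribute [instance] Rfl.full Rfl.faithful Rfl.hj

variable {C : Type u} [Category.{v} C] [MonoidalCategory C] [SymmetricCategory C]
  [MonoidalClosed C] [HasZeroMorphisms C] [HasColimitsOfSize.{0, 0} C] [StabInput C]
  {D : Type u'} [Category.{v} D] (R : Rfl C D)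

namespace Rfl

/-- the morphisms inverted by the reflector -/
abbrev W : MorphismProperty C := (MorphismProperty.isomorphisms D).inverseImage R.r

instance : R.r.IsLocalization R.W := R.adj.isLocalization

theorem W_whiskerRight {X Y : C} (f : X ⟶ Y) (hf : R.W f) (Z : C) : R.W (f ▷ Z) := by
  have h1 : IsIso (R.r.map f) := hf
  have h2 := R.hten X Z
  have h3 := R.hten Y Z
  have e : f ▷ Z ≫ R.adj.unit.app Y ▷ Z = R.adj.unit.app X ▷ Z ≫ R.q.map (R.r.map f) ▷ Z := by
    rw [← comp_whiskerRight, ← comp_whiskerRight]
    exact congrArg (· ▷ Z) (R.adj.unit.naturality f)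
  have h4 : IsIso (R.r.map (f ▷ Z) ≫ R.r.map (R.adj.unit.app Y ▷ Z)) := by
    rw [← R.r.map_comp, e, R.r.map_comp]
    infer_instance
  exact IsIso.of_isIso_comp_right (R.r.map (f ▷ Z)) (R.r.map (R.adj.unit.app Y ▷ Z))

instance : R.W.IsMonoidal where
  whiskerLeft Z _ _ f hf := by
    have h1 : IsIso (R.r.map (f ▷ Z)) := R.W_whiskerRight f hf Z
    have e : Z ◁ f = (β_ _ _).hom ≫ f ▷ Z ≫ (β_ _ _).inv := by
      rw [← Category.assoc, ← BraidedCategory.braiding_naturality_right, Category.assoc,
        Iso.hom_inv_id, Category.comp_id]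
    change IsIso (R.r.map (Z ◁ f))
    rw [e, R.r.map_comp, R.r.map_comp]
    infer_instance
  whiskerRight f hf Z := R.W_whiskerRight f hf Z

end Rfl

/-- The reflective subcategory, with its structure of a stabilisation input. -/
def RM : Type u' := LocalizedMonoidal R.r R.W (Iso.refl (R.r.obj (𝟙_ C)))

namespace RM

instance : Category.{v} (RM R) := inferInstanceAs (Category D)

noncomputable instance : MonoidalCategory (RM R) :=
  inferInstanceAs (MonoidalCategory (LocalizedMonoidal R.r R.W (Iso.refl (R.r.obj (𝟙_ C)))))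

noncomputable instance : SymmetricCategory (RM R) :=
  inferInstanceAs (SymmetricCategory (LocalizedMonoidal R.r R.W (Iso.refl (R.r.obj (𝟙_ C)))))

/-- the reflector -/
def r : C ⥤ RM R := R.r

/-- the inclusion -/
def q : RM R ⥤ C := R.q

/-- the adjunction -/
def adj : r R ⊣ q R := R.adj

instance : (q R).Full := R.full

instance : (q R).Faithful := R.faithful

noncomputable instance : (r R).Braided :=
  inferInstanceAs (Localization.Monoidal.toMonoidalCategory R.r R.W
    (Iso.refl (R.r.obj (𝟙_ C)))).Braided

noncomputable instance : MonoidalClosed (RM R) := Monoidal.Reflective.monoidalClosed (adj R)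

/-- the inclusion is reflective -/
noncomputable instance : Reflective (q R) where
  L := r R
  adj := adj R

instance : HasColimitsOfSize.{0, 0} (RM R) := hasColimits_of_reflective (q R)

instance (K : LC) : IsIso ((adj R).unit.app ((J C).obj K)) := R.hj K

theorem isZero_aux : IsZero ((r R).obj ((J C).obj (LC.of Empty))) := by
  let X := (r R).obj ((J C).obj (LC.of Empty))
  have h : IsZero ((q R).obj X) :=
    (isZero_empty (M := C)).of_iso (asIso ((adj R).unit.app ((J C).obj (LC.of Empty)))).symm
  refine ⟨fun Y => ⟨⟨⟨(q R).preimage 0⟩, fun f => ?_⟩⟩, fun Y => ⟨⟨⟨(q R).preimage 0⟩, fun f => ?_⟩⟩⟩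
  · exact (q R).map_injective (h.eq_of_src _ _)
  · exact (q R).map_injective (h.eq_of_tgt _ _)

noncomputable instance : HasZeroMorphisms (RM R) where
  zero X Y := ⟨(q R).preimage 0⟩
  comp_zero f Z := (q R).map_injective (by
    rw [(q R).map_comp]
    erw [(q R).map_preimage, (q R).map_preimage]
    exact comp_zero)
  zero_comp X _ _ f := (q R).map_injective (by
    rw [(q R).map_comp]
    erw [(q R).map_preimage, (q R).map_preimage]
    exact zero_comp)

theorem q_map_zero (X Y : RM R) : (q R).map (0 : X ⟶ Y) = 0 := (q R).map_preimage 0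

noncomputable instance : StabInput (RM R) := stabRefl (adj R) R.hj R.hfin

theorem J_eq : J (RM R) = J C ⋙ r R := rfl

theorem L_eq : (L : RM R) = (r R).obj (L : C) := rfl

theorem lam_eq : (lam : (L : RM R) ⊗ (J (RM R)).obj RR ⟶ 𝟙_ (RM R)) = lamR (r R) (J C) L lam :=
  rfl

end RM

end Vale.Agent.P251CR
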